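import Mathlib.CategoryTheory.ObjectProperty.FullSubcategory
import Mathlib.Data.ENat.Basic

/-!
# Strict globular ω-categories and n-categories (one-sorted presentation)

`src i a`, `tgt i a` are the `i`-dimensional source and target, seen as cells (identities being
identified with the cells they are identities of); `comp i a b` is `a ∘_i b` (`a` after `b`).
Every cell has a finite dimension.
-/

open CategoryTheory

namespace Vale.Agent.P213

/-- A small strict ω-category. -/
structure OCat where
  Cell : Type
  src : ℕ → Cell → Cell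
  tgt : ℕ → Cell → Cell
  comp : ∀ (i : ℕ) (a b : Cell), src i a = tgt i b → Cell
  src_src : ∀ i j a, src i (src j a) = src (min i j) a
  tgt_tgt : ∀ i j a, tgt i (tgt j a) = tgt (min i j) a
  src_tgt_lt : ∀ i j a, i < j → src i (tgt j a) = src i a
  src_tgt_ge : ∀ i j a, j ≤ i → src i (tgt j a) = tgt j a
  tgt_src_lt : ∀ i j a, i < j → tgt i (src j a) = tgt i a
  tgt_src_ge : ∀ i j a, j ≤ i → tgt i (src j a) = src j a
  exists_dim : ∀ a, ∃ k, src k a = a
  comp_unit_right : ∀ i a h, comp i a (src i a) h = a
  comp_unit_left : ∀ i a h, comp i (tgt i a) a h = a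
  src_comp_le : ∀ i j a b h, j ≤ i → src j (comp i a b h) = src j b
  tgt_comp_le : ∀ i j a b h, j ≤ i → tgt j (comp i a b h) = tgt j a
  src_comp_gt : ∀ i j a b h h', i < j → src j (comp i a b h) = comp i (src j a) (src j b) h'
  tgt_comp_gt : ∀ i j a b h h', i < j → tgt j (comp i a b h) = comp i (tgt j a) (tgt j b) h'
  assoc : ∀ i a b c h₁ h₂ h₃ h₄,
    comp i (comp i a b h₁) c h₂ = comp i a (comp i b c h₃) h₄
  interchange : ∀ i j a b c d h₁ h₂ h₃ h₄ h₅ h₆, i < j →
    comp i (comp j a b h₁) (comp j c d h₂) h₃ = comp j (comp i a c h₄) (comp i b d h₅) h₆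

namespace OCat

/-- A strict functor. -/
@[ext]
structure Hom (X Y : OCat) where
  map : X.Cell → Y.Cell
  map_src : ∀ i a, map (X.src i a) = Y.src i (map a)
  map_tgt : ∀ i a, map (X.tgt i a) = Y.tgt i (map a)
  map_comp : ∀ i a b h h', map (X.comp i a b h) = Y.comp i (map a) (map b) h'

lemma Hom.composable {X Y : OCat} (f : Hom X Y) {i : ℕ} {a b : X.Cell}
    (h : X.src i a = X.tgt i b) : Y.src i (f.map a) = Y.tgt i (f.map b) := by
  rw [← f.map_src, ← f.map_tgt, h]

instance : Category OCat where
  Hom := Hom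
  id X :=
    { map := id
      map_src := fun _ _ => rfl
      map_tgt := fun _ _ => rfl
      map_comp := fun _ _ _ _ _ => rfl }
  comp {X Y Z} f g :=
    { map := fun a => g.map (f.map a)
      map_src := fun i a => by rw [f.map_src, g.map_src]
      map_tgt := fun i a => by rw [f.map_tgt, g.map_tgt]
      map_comp := fun i a b h h' => by
        rw [f.map_comp i a b h (f.composable h), g.map_comp] }

@[ext]
lemma hom_ext {X Y : OCat} {f g : X ⟶ Y} (h : ∀ a, f.map a = g.map a) : f = g :=
  Hom.ext (funext h)

@[simp] lemma id_map (X : OCat) (a : X.Cell) : Hom.map (𝟙 X) a = a := rfl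

@[simp] lemma comp_map {X Y Z : OCat} (f : X ⟶ Y) (g : Y ⟶ Z) (a : X.Cell) :
    (f ≫ g).map a = g.map (f.map a) := rfl

/-- `X` is an `n`-category: all cells above dimension `n` are identities. -/
def DimLE (n : ℕ∞) : ObjectProperty OCat :=
  fun X => ∀ (k : ℕ) (a : X.Cell), n ≤ (k : ℕ∞) → X.src k a = a

end OCat

/-- The category of small strict `n`-categories, a full subcategory of small strict
ω-categories; for `n = ⊤` it is all of them. -/
abbrev NCat (n : ℕ∞) := (OCat.DimLE n).FullSubcategory

/-- The inclusion of `n`-categories into ω-categories. -/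
abbrev NCat.incl (n : ℕ∞) : NCat n ⥤ OCat := (OCat.DimLE n).ι

end Vale.Agent.P213
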