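import Mathlib.Algebra.BigOperators.Finsupp.Basic
import Mathlib.Algebra.Order.Group.Int
import Mathlib.Data.Finsupp.Order
import Mathlib.Data.Finsupp.Single
import Mathlib.Tactic.Abel
import Mathlib.LinearAlgebra.Finsupp.LSum
import Vale.Agent.P213.Basic.OCat

/-!
# Augmented directed complexes with a basis, and Steiner's functor ν
-/

open CategoryTheory

namespace Vale.Agent.P213

noncomputable section

/-- An augmented directed complex with a chosen basis. -/
structure ADC where
  B : ℕ → Type
  d : ∀ k, (B (k + 1) →₀ ℤ) →ₗ[ℤ] (B k →₀ ℤ)
  ε : (B 0 →₀ ℤ) →ₗ[ℤ] ℤ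
  d_d : ∀ k x, d k (d (k + 1) x) = 0
  ε_d : ∀ x, ε (d 0 x) = 0

namespace ADC

/-- A morphism: positive chain maps preserving the augmentation. -/
@[ext]
structure Hom (K L : ADC) where
  f : ∀ k, (K.B k →₀ ℤ) →ₗ[ℤ] (L.B k →₀ ℤ)
  pos : ∀ k x, 0 ≤ x → 0 ≤ f k x
  comm : ∀ k x, f k (K.d k x) = L.d k (f (k + 1) x)
  aug : ∀ x, L.ε (f 0 x) = K.ε x

instance : Category ADC where
  Hom := Hom
  id K :=
    { f := fun _ => LinearMap.id
      pos := fun _ _ h => h
      comm := fun _ _ => rfl
      aug := fun _ => rfl }
  comp {K L M} φ ψ :=
    { f := fun k => (ψ.f k).comp (φ.f k)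
      pos := fun k x h => ψ.pos k _ (φ.pos k x h)
      comm := fun k x => by simp [φ.comm, ψ.comm]
      aug := fun x => by simp [φ.aug, ψ.aug] }

/-- A cell of `ν K`: `x k false` is `x⁻_k` (source side) and `x k true` is `x⁺_k`. -/
@[ext]
structure Table (K : ADC) where
  x : ∀ k, Bool → (K.B k →₀ ℤ)
  nonneg : ∀ k s, 0 ≤ x k s
  aug : ∀ s, K.ε (x 0 s) = 1
  bdry : ∀ k s, K.d k (x (k + 1) s) = x k true - x k false
  exists_zero : ∃ N, ∀ k s, N ≤ k → x k s = 0

variable {K L : ADC}

/-- The `i`-dimensional source (`e = false`) or target (`e = true`). -/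
def Table.face (a : Table K) (i : ℕ) (e : Bool) : Table K where
  x k s := if k < i then a.x k s else if k = i then a.x k e else 0
  nonneg k s := by
    split_ifs
    · exact a.nonneg k s
    · exact a.nonneg k e
    · exact le_rfl
  aug s := by
    split_ifs with h₁ h₂
    · exact a.aug s
    · exact a.aug e
    · omega
  bdry k s := by
    rcases lt_trichotomy (k + 1) i with h | h | h
    · rw [if_pos h, if_pos (by omega : k < i), if_pos (by omega : k < i), a.bdry]
    · subst h
      simp [a.bdry]
    · rw [if_neg (by omega), if_neg (by omega), map_zero]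
      by_cases hk : k = i
      · subst hk
        simp
      · simp [hk, show ¬ k < i by omega]
  exists_zero := ⟨i + 1, fun k s h => by
    rw [if_neg (by omega), if_neg (by omega)]⟩

@[simp] lemma Table.face_x (a : Table K) (i : ℕ) (e : Bool) (k : ℕ) (s : Bool) :
    (a.face i e).x k s = if k < i then a.x k s else if k = i then a.x k e else 0 := rfl

lemma Table.composable {a b : Table K} {i : ℕ} (h : a.face i false = b.face i true) :
    (∀ k s, k < i → a.x k s = b.x k s) ∧ a.x i false = b.x i true := by
  refine ⟨fun k s hk => ?_, ?_⟩
  · simpa [hk] using congrArg (fun t : Table K => t.x k s) h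
  · simpa using congrArg (fun t : Table K => t.x i false) h

/-- The composite `a ∘_i b` (`a` after `b`). -/
def Table.comp (i : ℕ) (a b : Table K) (h : a.face i false = b.face i true) : Table K where
  x k s := if k < i then a.x k s else if k = i then (if s then a.x k true else b.x k false)
    else a.x k s + b.x k s
  nonneg k s := by
    split_ifs
    exacts [a.nonneg k s, a.nonneg k true, b.nonneg k false,
      add_nonneg (a.nonneg k s) (b.nonneg k s)]
  aug s := by
    split_ifs with h₁ h₂ h₃
    exacts [a.aug s, a.aug true, b.aug false, (by omega : False).elim]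
  bdry k s := by
    obtain ⟨hlt, heq⟩ := Table.composable h
    rcases lt_trichotomy (k + 1) i with hk | hk | hk
    · rw [if_pos hk, if_pos (by omega : k < i), if_pos (by omega : k < i), a.bdry]
    · subst hk
      simp only [lt_irrefl, if_false, if_true, lt_add_iff_pos_right, zero_lt_one]
      cases s
      · simp [b.bdry, hlt k _ (Nat.lt_succ_self k)]
      · simp [a.bdry]
    · rw [if_neg (by omega), if_neg (by omega), map_add, a.bdry, b.bdry]
      by_cases hki : k = i
      · subst hki
        simp [heq]
      · simp only [show ¬ k < i by omega, hki, if_false]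
        abel
  exists_zero := by
    obtain ⟨N, hN⟩ := a.exists_zero
    obtain ⟨M, hM⟩ := b.exists_zero
    refine ⟨N + M + i + 1, fun k s hk => ?_⟩
    rw [if_neg (by omega), if_neg (by omega), hN k s (by omega), hM k s (by omega), add_zero]

@[simp] lemma Table.comp_x (i : ℕ) (a b : Table K) (h) (k : ℕ) (s : Bool) :
    (Table.comp i a b h).x k s = if k < i then a.x k s else if k = i then
      (if s then a.x k true else b.x k false) else a.x k s + b.x k s := rfl

lemma Table.eventually_eq (a : Table K) : ∃ N, a.face N false = a := by
  obtain ⟨N, hN⟩ := a.exists_zero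
  refine ⟨N, Table.ext (funext fun k => funext fun s => ?_)⟩
  rw [Table.face_x]
  split_ifs with h₁ h₂
  · rfl
  · rw [hN k s (by omega), hN k false (by omega)]
  · rw [hN k s (by omega)]

/-- Steiner's functor on objects. -/
def nu (K : ADC) : OCat where
  Cell := Table K
  src i a := a.face i false
  tgt i a := a.face i true
  comp := Table.comp
  src_src i j a := by
    refine Table.ext (funext fun k => funext fun s => ?_)
    simp only [Table.face_x]
    grind
  tgt_tgt i j a := by
    refine Table.ext (funext fun k => funext fun s => ?_)
    simp only [Table.face_x]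
    grind
  src_tgt_lt i j a h := by
    refine Table.ext (funext fun k => funext fun s => ?_)
    simp only [Table.face_x]
    grind
  src_tgt_ge i j a h := by
    refine Table.ext (funext fun k => funext fun s => ?_)
    simp only [Table.face_x]
    grind
  tgt_src_lt i j a h := by
    refine Table.ext (funext fun k => funext fun s => ?_)
    simp only [Table.face_x]
    grind
  tgt_src_ge i j a h := by
    refine Table.ext (funext fun k => funext fun s => ?_)
    simp only [Table.face_x]
    grind
  exists_dim := Table.eventually_eq
  comp_unit_right i a h := by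
    refine Table.ext (funext fun k => funext fun s => ?_)
    simp only [Table.comp_x, Table.face_x]
    cases s <;> grind
  comp_unit_left i a h := by
    refine Table.ext (funext fun k => funext fun s => ?_)
    simp only [Table.comp_x, Table.face_x]
    cases s <;> grind
  src_comp_le i j a b h hj := by
    obtain ⟨hlt, heq⟩ := Table.composable h
    refine Table.ext (funext fun k => funext fun s => ?_)
    simp only [Table.comp_x, Table.face_x]
    grind
  tgt_comp_le i j a b h hj := by
    obtain ⟨hlt, heq⟩ := Table.composable h
    refine Table.ext (funext fun k => funext fun s => ?_)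
    simp only [Table.comp_x, Table.face_x]
    grind
  src_comp_gt i j a b h h' hj := by
    refine Table.ext (funext fun k => funext fun s => ?_)
    simp only [Table.comp_x, Table.face_x]
    grind
  tgt_comp_gt i j a b h h' hj := by
    refine Table.ext (funext fun k => funext fun s => ?_)
    simp only [Table.comp_x, Table.face_x]
    grind
  assoc i a b c h₁ h₂ h₃ h₄ := by
    refine Table.ext (funext fun k => funext fun s => ?_)
    simp only [Table.comp_x]
    grind
  interchange i j a b c d h₁ h₂ h₃ h₄ h₅ h₆ hij := by
    obtain ⟨hlt, heq⟩ := Table.composable h₁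
    obtain ⟨hlt', heq'⟩ := Table.composable h₂
    refine Table.ext (funext fun k => funext fun s => ?_)
    simp only [Table.comp_x]
    grind

/-- The action of a morphism on cells. -/
def Table.map (φ : K ⟶ L) (a : Table K) : Table L where
  x k s := φ.f k (a.x k s)
  nonneg k s := φ.pos k _ (a.nonneg k s)
  aug s := by rw [φ.aug, a.aug]
  bdry k s := by rw [← φ.comm, a.bdry, map_sub]
  exists_zero := by
    obtain ⟨N, hN⟩ := a.exists_zero
    exact ⟨N, fun k s h => by rw [hN k s h, map_zero]⟩

lemma Table.map_face (φ : K ⟶ L) (a : Table K) (i : ℕ) (e : Bool) :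
    Table.map φ (a.face i e) = (Table.map φ a).face i e := by
  refine Table.ext (funext fun k => funext fun s => ?_)
  simp only [Table.map, Table.face_x]
  split_ifs <;> simp

lemma Table.map_comp (φ : K ⟶ L) (i : ℕ) (a b : Table K) (h) (h') :
    Table.map φ (Table.comp i a b h) = Table.comp i (Table.map φ a) (Table.map φ b) h' := by
  refine Table.ext (funext fun k => funext fun s => ?_)
  simp only [Table.map, Table.comp_x]
  split_ifs <;> simp

/-- Steiner's functor `ν`. -/
def nuFunctor : ADC ⥤ OCat where
  obj := nu
  map {K L} φ :=
    { map := Table.map φ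
      map_src := fun i a => Table.map_face φ a i false
      map_tgt := fun i a => Table.map_face φ a i true
      map_comp := fun i a b h h' => Table.map_comp φ i a b h h' }
  map_id _ := rfl
  map_comp _ _ := rfl

end ADC

end

end Vale.Agent.P213
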