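import Vale.Agent.P213.Basic.ADC

/-!
# Atoms, loop-freeness, and the interface of Steiner's freeness theorem
-/

open CategoryTheory

namespace Vale.Agent.P213.ADC

noncomputable section

variable (K : ADC)

/-- A basis element as a chain. -/
def gen {k : ℕ} (b : K.B k) : K.B k →₀ ℤ := Finsupp.single b 1

/-- `(b, e)` has a coefficient of the given sign in the boundary of `a`. -/
def InBdry {k : ℕ} (e : Bool) (a : K.B (k + 1)) (b : K.B k) : Prop :=
  if e then 0 < K.d k (K.gen a) b else K.d k (K.gen a) b < 0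

/-- Strong loop-freeness, witnessed by a rank on the basis: sources come before, targets after. -/
def StronglyLoopFree : Prop :=
  ∃ r : (Σ k, K.B k) → ℤ, ∀ (k : ℕ) (a : K.B (k + 1)) (b : K.B k),
    (K.InBdry false a b → r ⟨k, b⟩ < r ⟨k + 1, a⟩) ∧ (K.InBdry true a b → r ⟨k + 1, a⟩ < r ⟨k, b⟩)

/-- `c` is an atom at `b`: level `k` is `b`, nothing above, and each lower level is the positive
(resp. negative) part of the boundary of the one above, on the target (resp. source) side. -/
structure IsAtom {k : ℕ} (b : K.B k) (c : Table K) : Prop where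
  top : ∀ s, c.x k s = K.gen b
  above : ∀ l s, k < l → c.x l s = 0
  min : ∀ l, l < k → c.x l true ⊓ c.x l false = 0

/-- A basis that is finite, strongly loop-free and unital. -/
structure IsSteiner : Prop where
  finite : Finite (Σ k, K.B k)
  loopFree : K.StronglyLoopFree
  unital : ∀ (k : ℕ) (b : K.B k), ∃ c : Table K, K.IsAtom b c

/-- The `k`-dimensional cells of `ν K`. -/
def CellLE (k : ℕ) := {c : Table K // ∀ l s, k < l → c.x l s = 0}

/-- A functor defined on the cells of dimension at most `k`. -/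
structure PartialHom (k : ℕ) (X : OCat) where
  map : K.CellLE k → X.Cell
  dim : ∀ c, X.src k (map c) = map c
  map_src : ∀ i c hc, map ⟨(c : K.CellLE k).1.face i false, hc⟩ = X.src i (map c)
  map_tgt : ∀ i c hc, map ⟨(c : K.CellLE k).1.face i true, hc⟩ = X.tgt i (map c)
  map_comp : ∀ i (a b : K.CellLE k) h hc h',
    map ⟨Table.comp i a.1 b.1 h, hc⟩ = X.comp i (map a) (map b) h'

/-- Goal M3 (uniqueness): functors out of `ν K` are determined by the atoms. -/
def FreeUniqueGoal : Prop :=
  ∀ K : ADC, K.IsSteiner → ∀ (X : OCat) (F G : nu K ⟶ X),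
    (∀ (k : ℕ) (b : K.B k) (c : Table K), K.IsAtom b c → F.map c = G.map c) → F = G

/-- Goal M3 (existence): a functor on cells of dimension at most `k` extends over the atoms of
dimension `k + 1`, given values with the prescribed source and target. -/
def FreeExtendGoal : Prop :=
  ∀ K : ADC, K.IsSteiner → ∀ (X : OCat) (k : ℕ) (F : K.PartialHom k X) (φ : K.B (k + 1) → X.Cell),
    (∀ b, X.src (k + 1) (φ b) = φ b) →
    (∀ b c hs ht, K.IsAtom b c →
      X.src k (φ b) = F.map ⟨c.face k false, hs⟩ ∧ X.tgt k (φ b) = F.map ⟨c.face k true, ht⟩) →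
    ∃ G : K.PartialHom (k + 1) X,
      (∀ c (h : ∀ l s, k + 1 < l → c.x l s = 0) (h' : ∀ l s, k < l → c.x l s = 0),
        G.map ⟨c, h⟩ = F.map ⟨c, h'⟩) ∧
      ∀ b c (h : ∀ l s, k + 1 < l → c.x l s = 0), K.IsAtom b c → G.map ⟨c, h⟩ = φ b

end

end Vale.Agent.P213.ADC
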