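import Mathlib.AlgebraicTopology.SimplicialSet.Homotopy
import Mathlib.AlgebraicTopology.SimplicialSet.KanComplex

/-!
# Weak homotopy equivalences of simplicial sets

`f : X ⟶ Y` is a weak homotopy equivalence iff for every Kan complex `K` it induces a bijection
between simplicial homotopy classes of maps `Y ⟶ K` and `X ⟶ K` (the classical definition).
Cofibrations, Kan fibrations, Kan complexes, `sd` and `ex` are Mathlib's.
-/

open CategoryTheory
open scoped SSet.modelCategoryQuillen

namespace Vale.Agent.P213

/-- Simplicially homotopic maps. -/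
def Htpc {X Y : SSet.{0}} (f g : X ⟶ Y) : Prop := Nonempty (SSet.Homotopy f g)

/-- The relation on maps generated by simplicial homotopy (equal to it for a Kan target). -/
def HtpcEqv {X Y : SSet.{0}} : (X ⟶ Y) → (X ⟶ Y) → Prop := Relation.EqvGen Htpc

/-- Weak homotopy equivalences of simplicial sets. -/
def IsWE : MorphismProperty SSet.{0} := fun X Y f =>
  ∀ (K : SSet.{0}), SSet.KanComplex K →
    (∀ a : X ⟶ K, ∃ b : Y ⟶ K, HtpcEqv (f ≫ b) a) ∧
    ∀ b b' : Y ⟶ K, HtpcEqv (f ≫ b) (f ≫ b') → HtpcEqv b b'

/-- Kan fibrations (Mathlib's `fibrations SSet`). -/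
abbrev KanFib : MorphismProperty SSet.{0} := HomotopicalAlgebra.fibrations SSet.{0}

end Vale.Agent.P213
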